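import Vale.Agent.P067.Cob.Main

/-!
Bounded-degree coboundary expanders exist in every dimension.
-/

namespace Vale.Agent.Results.P067.CoboundaryExpanders

open Vale.Agent.P067

theorem result : ∀ d : ℕ, 1 ≤ d → ∃ (D : ℕ) (ε : ℝ), 0 < ε ∧ ∀ M : ℕ,
    ∃ (n : ℕ) (T : Finset (Finset (Fin n))), M ≤ n ∧ (∀ τ ∈ T, τ.card = d + 1) ∧
      (∀ v : Fin n, ∃ τ ∈ T, v ∈ τ) ∧
      (∀ u v : Fin n, Relation.ReflTransGen (fun a b : Fin n => ∃ τ ∈ T, a ∈ τ ∧ b ∈ τ) u v) ∧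
      (∀ v : Fin n, (T.filter fun τ => v ∈ τ).card ≤ D) ∧ IsExpander T d ε :=
  Vale.Agent.P067.Cob.main

end Vale.Agent.Results.P067.CoboundaryExpanders
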