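import Vale.Agent.P067.Decoder

/-!
Bounded-degree coboundary expanders have top cohomology of dimension linear in the number of
vertices.
-/

namespace Vale.Agent.Results.P067.TopCohomologyLinear

open Finset Module Vale.Agent.P067

theorem result (d : ℕ) (hd : 1 ≤ d) (D : ℕ) (ε : ℝ) (hε : 0 < ε) :
    ∃ K : ℕ, ∀ (n : ℕ) (T : Finset (Finset (Fin n))),
      (∀ τ ∈ T, τ.card = d + 1) → (∀ v, ∃ τ ∈ T, v ∈ τ) →
      (∀ v, (T.filter fun τ => v ∈ τ).card ≤ D) → IsExpander T d ε →
      finrank (ZMod 2) ↥(LinearMap.range (cob T (d - 1))) ≤ T.card ∧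
      n ≤ K * (T.card - finrank (ZMod 2) ↥(LinearMap.range (cob T (d - 1))) + 1) :=
  linear_top_cohomology d hd D ε hε

end Vale.Agent.Results.P067.TopCohomologyLinear
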